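import Vale.Agent.P196.Tree.Main

/-!
P196: an amenable finitely presented group without proper finite-index subgroups, in particular an
infinite finitely presented simple amenable group, has no nontrivial action along a tree of bounded
degree and no nontrivial action inside the full group of a free action of a free group.
-/

namespace Vale.Agent.Results.P196.NoTreeLikeAction

open scoped Classical

universe u v w

theorem result :
    (∀ (G : Type u) [Group G] [Group.IsFinitelyPresented G],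
      (∀ H : Subgroup G, H.FiniteIndex → H = ⊤) →
      (∀ (K : Finset G) (ε : ℝ), 0 < ε → ∃ D : Finset G, D.Nonempty ∧
        ∀ g ∈ K, ((symmDiff (D.image (g * ·)) D).card : ℝ) < ε * D.card) →
      (∀ (X : Type v) (V : Type w) (T : SimpleGraph V), T.IsTree →
        ∀ m k : ℕ, (∀ a, (T.neighborSet a).encard ≤ m) →
        ∀ pos : X → V, (∀ a, {x | pos x = a}.encard ≤ k) →
        ∀ ρ : G →* Equiv.Perm X,
          (∀ g, ∃ N : ℕ, ∀ x, T.dist (pos x) (pos (ρ g x)) ≤ N) → ρ = 1) ∧
      (∀ (X : Type v) (m : ℕ) (α : FreeGroup (Fin m) →* Equiv.Perm X),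
        (∀ a x, α a x = x → a = 1) →
        ∀ ρ : G →* Equiv.Perm X,
          (∀ g, ∃ K : Finset (FreeGroup (Fin m)), ∀ x, ∃ a ∈ K, ρ g x = α a x) → ρ = 1)) ∧
    ∀ (G : Type u) [Group G] [Group.IsFinitelyPresented G] [IsSimpleGroup G] [Infinite G],
      (∀ (K : Finset G) (ε : ℝ), 0 < ε → ∃ D : Finset G, D.Nonempty ∧
        ∀ g ∈ K, ((symmDiff (D.image (g * ·)) D).card : ℝ) < ε * D.card) →
      ∀ (X : Type v) (V : Type w) (T : SimpleGraph V), T.IsTree →
        ∀ m k : ℕ, (∀ a, (T.neighborSet a).encard ≤ m) →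
        ∀ pos : X → V, (∀ a, {x | pos x = a}.encard ≤ k) →
        ∀ ρ : G →* Equiv.Perm X,
          (∀ g, ∃ N : ℕ, ∀ x, T.dist (pos x) (pos (ρ g x)) ≤ N) → ¬ Function.Injective ρ := by
  refine ⟨fun G _ _ hG hA => ⟨fun X V T hT m k hdeg pos hfib ρ hρ =>
      Vale.Agent.P196.Tree.tree_action_trivial hG hA T hT hdeg ρ pos hfib hρ,
    fun X m α hfree ρ hρ =>
      Vale.Agent.P196.Tree.free_full_group_trivial hG hA α hfree ρ hρ⟩,
    fun G _ _ _ _ hA X V T hT m k hdeg pos hfib ρ hρ hinj => ?_⟩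
  have htriv : ρ = 1 := Vale.Agent.P196.Tree.tree_action_trivial
    (fun H hH => Vale.Agent.P196.finiteIndex_eq_top_of_simple H hH) hA T hT hdeg ρ pos hfib hρ
  obtain ⟨g, hg⟩ := exists_ne (1 : G)
  exact hg (hinj (by rw [htriv]; rfl))

end Vale.Agent.Results.P196.NoTreeLikeAction
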