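import Vale.Agent.P196.Core

/-!
P196: no infinite finitely presented simple group acts faithfully by bounded powers of a single
bijection; in particular none embeds in the topological full group of any homeomorphism.
-/

namespace Vale.Agent.Results.P196.NoWobblingAction

universe u v

theorem result :
    (∀ (G : Type u) [Group G] [Group.IsFinitelyPresented G],
      (∀ H : Subgroup G, H.FiniteIndex → H = ⊤) →
      ∀ (X : Type v) (φ : Equiv.Perm X) (ρ : G →* Equiv.Perm X),
        (∀ g, ∃ N : ℕ, ∀ x, ∃ k : ℤ, |k| ≤ N ∧ ρ g x = (φ ^ k) x) → ρ = 1) ∧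
    ∀ (G : Type u) [Group G] [Group.IsFinitelyPresented G] [IsSimpleGroup G] [Infinite G],
      ∀ (X : Type v) [TopologicalSpace X] (φ : X ≃ₜ X) (ρ : G →* Equiv.Perm X),
        (∀ g, ∃ (r : ℕ) (U : Fin r → Set X) (n : Fin r → ℤ), (∀ i, IsClopen (U i)) ∧
          (∀ x, ∃ i, x ∈ U i) ∧
          ∀ i, ∀ x ∈ U i, ρ g x = ((φ.toEquiv : Equiv.Perm X) ^ n i) x) →
        ¬ Function.Injective ρ := by
  refine ⟨fun G _ _ hG X φ ρ hρ => Vale.Agent.P196.wobbling_action_trivial hG φ ρ hρ,
    fun G _ _ _ _ X _ φ ρ hρ hinj => ?_⟩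
  have htriv : ρ = 1 := Vale.Agent.P196.wobbling_action_trivial
    (fun H hH => Vale.Agent.P196.finiteIndex_eq_top_of_simple H hH) (φ.toEquiv) ρ fun g => by
      obtain ⟨r, U, n, -, hcov, hU⟩ := hρ g
      refine ⟨∑ i, (n i).natAbs, fun x => ?_⟩
      obtain ⟨i, hi⟩ := hcov x
      refine ⟨n i, ?_, hU i x hi⟩
      rw [Int.abs_eq_natAbs]
      exact_mod_cast Finset.single_le_sum (f := fun i => (n i).natAbs) (fun _ _ => Nat.zero_le _)
        (Finset.mem_univ i)
  obtain ⟨g, hg⟩ := exists_ne (1 : G)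
  exact hg (hinj (by rw [htriv]; rfl))

end Vale.Agent.Results.P196.NoWobblingAction
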